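import Vale.Agent.P127.Lin2.Cnt
import Vale.Agent.P127.Fou

/-! # P127 Lin2/Sum: the Fourier lemma applied in a heavy window. -/

namespace Vale.Agent.P127

open Finset
open scoped Classical

theorem loc_A (k : ℕ) : ∃ C : ℝ, ∀ {σ w K : ℝ} {d : Dat (k + 1)} {i0 : Fin (k + 1)},
    Hy σ d w K i0 → σ ≤ 1 → ∀ {n F ω0}, Fd d w⁻¹ n F ω0 → ∀ a r : ℝ, 1 ≤ r →
    (((F.image fun p => alp d i0 w⁻¹ ω0 p.1).filter fun α : ℤ => |(α : ℝ) - a| ≤ r).card : ℝ) ≤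
      C * K * r ^ (1 - σ) := by
  obtain ⟨C, hC1, hC⟩ := card_alp k
  refine ⟨C * 2 ^ (k + 1), fun {σ w K d i0} h h1 n F ω0 hF a r hr => ?_⟩
  have e0 := h.e0
  have e2 := pow_pos e0 2
  have hK := h.K0
  rcases le_total r w with hrw | hrw
  · have b := hC h 2 ω0.2 (r * w⁻¹ ^ 2)
      (Pi.single i0 (w⁻¹ ^ 2 * (a + cell (w⁻¹ ^ 2) (d.u ω0) i0))) ω0
      ((F.image fun p => alp d i0 w⁻¹ ω0 p.1).filter fun α : ℤ => |(α : ℝ) - a| ≤ r) one_le_two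
      (le_mul_of_one_le_left e2.le hr) ?_ fun α hα => ?_
    · rwa [mul_div_cancel_right₀ _ e2.ne'] at b
    · calc r * w⁻¹ ^ 2 ≤ w * w⁻¹ ^ 2 := by gcongr
        _ = w⁻¹ := by rw [sq, ← mul_assoc, mul_inv_cancel₀ h.w0.ne', one_mul]
        _ ≤ 1 := h.e1
    · obtain ⟨b1, b2⟩ := mem_filter.1 hα
      obtain ⟨p, hp, rfl⟩ := mem_image.1 b1
      refine ⟨p.1, (mem_TT.1 (hF.sub hp)).1.1, (hF.key p hp).1,
        h.norm_u_sub _ _ (fun j hj => Pi.single_eq_of_ne hj _) ?_, rfl⟩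
      have b3 : |d.u p.1 i0 - w⁻¹ ^ 2 * (cell (w⁻¹ ^ 2) (d.u p.1) i0 : ℝ)| ≤ w⁻¹ ^ 2 :=
        (norm_le_pi_norm (d.u p.1 - fun j => w⁻¹ ^ 2 * (cell (w⁻¹ ^ 2) (d.u p.1) j : ℝ)) i0).trans
          (cell_corner e2 (d.u p.1))
      simp only [alp, Int.cast_sub] at b2
      have b4 := mul_le_mul_of_nonneg_left b2 e2.le
      rw [← abs_of_pos e2, ← abs_mul, abs_of_pos e2] at b4
      have b5 : w⁻¹ ^ 2 ≤ w⁻¹ ^ 2 * r := le_mul_of_one_le_right e2.le hr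
      rw [Pi.single_eq_same, abs_le]
      rw [abs_le] at b3 b4
      constructor <;> linarith [b3.1, b3.2, b4.1, b4.2]
  · have b := hC h 2 ω0.2 w⁻¹ (d.u ω0) ω0
      ((F.image fun p => alp d i0 w⁻¹ ω0 p.1).filter fun α : ℤ => |(α : ℝ) - a| ≤ r) one_le_two
      h.e3 h.e1 fun α hα => by
        obtain ⟨p, hp, rfl⟩ := mem_image.1 (mem_filter.1 hα).1
        exact ⟨p.1, (mem_TT.1 (hF.sub hp)).1.1, (hF.key p hp).1,
          by linarith [h.u0_close hF hp], rfl⟩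
    rw [h.e4] at b
    refine b.trans (mul_le_mul_of_nonneg_left ?_ (by positivity))
    exact Real.rpow_le_rpow h.w0.le hrw (by linarith)

theorem sum_l2 (k : ℕ) {σ : ℝ} (h0 : 0 < σ) (h1 : σ ≤ 1) : ∃ c : ℕ,
    ∀ {w K : ℝ} {d : Dat (k + 1)} {i0 : Fin (k + 1)}, Hy σ d w K i0 → Real.logb 2 w ≤ K →
    K ^ c ≤ w → ∀ n, d.c.nL * w ^ 2 / (18 * K ^ 3) ≤ (TT d w⁻¹ n).card →
    ∃ z0 ∈ d.c.E.image Prod.snd, cz w⁻¹ z0 = n ∧ SumD σ w (K ^ c)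
      ((d.c.E.image Prod.snd).filter fun z => cz w⁻¹ z = n)
      (gph d w⁻¹ z0 fun l => (i0, i0.succAbove l)) := by
  obtain ⟨c, hc⟩ := fou k h0 h1
  obtain ⟨C1, hC1, hkey⟩ := key_l2 k
  obtain ⟨C2, hC2, hal⟩ := card_alp k
  obtain ⟨C3, hY⟩ := card_Y k
  obtain ⟨C4, hC4, hI⟩ := card_I k
  obtain ⟨C5, hA⟩ := loc_A k
  obtain ⟨B, hB⟩ : ∃ B : ℝ, B = (k + 1) * 2 ^ (k + 1) + 4 * (k + 1) + 1 := ⟨_, rfl⟩
  have hB1 : 1 ≤ B := by
    rw [hB]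
    exact le_add_of_nonneg_left (by positivity)
  obtain ⟨c1, d1, d2, d3, d4, d5, d6, d7, d8, d9⟩ := ((dom_l2 2 1).and ((dom_l2 C3 0).and
    ((dom_l2 ((k + 1) * 2 ^ (k + 1) + 3) 0).and
    ((dom_l2 ((2 * (1 + (1 + (k + 1) * 2 ^ (k + 1)) * 6) + 2) ^ (k + 1)) 0).and
    ((dom_l2 C5 1).and ((dom_l2 (C2 * B ^ (k + 1)) (k + 2)).and ((dom_l2 (B + 1) 1).and
    ((dom_l2 (C4 * C1) 6).and (dom_l2 (4 * k + 3) 1))))))))).exists
  refine ⟨c1 * c, fun {w K d i0} h hlog hKw n hn => ?_⟩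
  have hK := h.K2
  have hw := h.w0
  have hL := h.reg.good.nL_pos
  replace d1 := d1 K hK
  replace d2 := d2 K hK
  replace d3 := d3 K hK
  replace d4 := d4 K hK
  replace d5 := d5 K hK
  replace d6 := d6 K hK
  replace d7 := d7 K hK
  replace d8 := d8 K hK
  replace d9 := d9 K hK
  rw [pow_mul] at hKw ⊢
  simp only [pow_zero, pow_one, mul_one] at d1 d2 d3 d4 d5 d7 d9
  generalize K ^ c1 = K' at *
  obtain ⟨F, hFs, hF1, hF2⟩ := hkey h n hn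
  obtain ⟨p0, hp0⟩ : F.Nonempty :=
    card_pos.1 (Nat.cast_pos.1 (lt_of_lt_of_le (by positivity) hF1))
  have m0 := mem_TT.1 (hFs hp0)
  have hF : Fd d w⁻¹ n F p0.1 := ⟨hFs, m0.1.1, m0.2.2.1, fun p hp => hF2 p hp p0 hp0⟩
  have hrep : ∀ y, ∃ p ∈ F, y ∈ (F.image fun p => cell w⁻¹ (d.c.pos p.1)) →
      cell w⁻¹ (d.c.pos p.1) = y := fun y => by
    by_cases hy : y ∈ F.image fun p => cell w⁻¹ (d.c.pos p.1)
    · obtain ⟨p, hp, e⟩ := mem_image.1 hy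
      exact ⟨p, hp, fun _ => e⟩
    · exact ⟨p0, hp0, fun h' => absurd h' hy⟩
  choose rep hr1 hr2 using hrep
  have e1 : 2 ≤ K' := by linarith
  have e2 : Real.logb 2 w ≤ K' := by linarith
  refine ⟨p0.1.2, mem_image_of_mem _ m0.1.1, m0.2.2.1, hc w K' ℝ (Fin (k + 1) → ℤ)
    ((d.c.E.image Prod.snd).filter fun z => cz w⁻¹ z = n)
    (F.image fun p => cell w⁻¹ (d.c.pos p.1)) (gph d w⁻¹ p0.1.2 fun l => (i0, i0.succAbove l)) (fun y => gv i0 w⁻¹ (d.s (rep y).1 i0) y)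
    (F.image fun p => alp d i0 w⁻¹ p0.1 p.1)
    (fun t => (d.c.E.filter fun ω => ω.2 = t ∧ ‖d.u ω - d.u p0.1‖ ≤ B * K * w⁻¹).image
      (alp d i0 w⁻¹ p0.1))
    (F.image fun p => (p.2.2, cell w⁻¹ (d.c.pos p.1), alp d i0 w⁻¹ p0.1 p.1))
    e1 hKw e2 ?_ ?_ (fun t ht => ?_) (fun y hy => ?_)
    (fun q => ?_) (fun α hα => ?_) (fun a r hr => ?_)
    (fun t _ => ⟨?_, fun α hα => ?_⟩) (fun q hq => ?_) ?_ fun q hq => ?_⟩
  · refine le_trans (Nat.cast_le.2 (card_le_card (filter_subset_filter _ fun z hz => ?_)))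
      ((h.card_win n).trans (by gcongr; linarith))
    obtain ⟨ω, hω, rfl⟩ := mem_image.1 hz
    exact h.memZ hω
  · exact (hY h hF).trans (by gcongr)
  · obtain ⟨ω, hω, rfl⟩ := mem_image.1 (mem_filter.1 ht).1
    exact (h.norm_gph m0.1.1 hω ((mem_filter.1 ht).2.trans m0.2.2.1.symm) _).trans (by gcongr)
  · obtain ⟨p, hp, rfl⟩ := mem_image.1 hy
    exact (h.norm_gv (mem_TT.1 (hFs hp)).1.1 (mem_TT.1 (hFs (hr1 _))).1.1).trans d3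
  · exact (h.card_Yb hF (fun y => d.s (rep y).1 i0) q).trans d4
  · obtain ⟨p, hp, rfl⟩ := mem_image.1 hα
    refine (h.abs_alp (A := 1) (by rw [one_mul]; exact h.u0_close hF hp)).trans ?_
    gcongr
    linarith
  · exact (hA h h1 hF a r hr).trans (by gcongr)
  · have b := hal h (B * K) t w⁻¹ (d.u p0.1) p0.1
      ((d.c.E.filter fun ω => ω.2 = t ∧ ‖d.u ω - d.u p0.1‖ ≤ B * K * w⁻¹).image
        (alp d i0 w⁻¹ p0.1)) (by nlinarith) h.e3 h.e1 fun α hα => by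
        obtain ⟨ω, hω, rfl⟩ := mem_image.1 hα
        exact ⟨ω, (mem_filter.1 hω).1, (mem_filter.1 hω).2.1, (mem_filter.1 hω).2.2, rfl⟩
    rw [h.e4] at b
    refine b.trans (mul_le_mul_of_nonneg_right (le_trans (le_of_eq ?_) d6) (by positivity))
    ring
  · obtain ⟨ω, hω, rfl⟩ := mem_image.1 hα
    refine (h.abs_alp (mem_filter.1 hω).2.2).trans ?_
    gcongr
    linarith
  · obtain ⟨p, hp, rfl⟩ := mem_image.1 hq
    have m := mem_TT.1 (hFs hp)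
    exact mem_product.2 ⟨mem_filter.2 ⟨mem_image_of_mem _ m.1.2, m.2.2.2⟩,
      mem_product.2 ⟨mem_image_of_mem _ hp, mem_image_of_mem _ hp⟩⟩
  · refine le_trans ?_ (hI h hF C1 (by linarith) hF1)
    gcongr
  · obtain ⟨p, hp, rfl⟩ := mem_image.1 hq
    refine ⟨alp d i0 w⁻¹ p0.1 p.2, mem_image_of_mem _ (mem_filter.2
      ⟨(mem_TT.1 (hFs hp)).1.2, rfl, hB ▸ h.u1_close hF hp⟩), ?_⟩
    exact (h.rel hF hp (hr1 _) (hr2 _ (mem_image_of_mem _ hp))).trans d9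

end Vale.Agent.P127
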