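import Vale.Agent.P127.Lin2.Data

/-! # P127 Lin2/Cnt: the remaining counts. -/

namespace Vale.Agent.P127

open Finset
open scoped Classical

variable {k : ℕ}

theorem dom_l2 (C : ℝ) (j : ℕ) : ∀ᶠ c : ℕ in Filter.atTop, ∀ K : ℝ, 2 ≤ K → C * K ^ j ≤ K ^ c := by
  obtain ⟨c0, h0⟩ := pow_unbounded_of_one_lt C (one_lt_two (α := ℝ))
  filter_upwards [Filter.eventually_ge_atTop (c0 + j)] with c hc K hK
  calc C * K ^ j ≤ K ^ c0 * K ^ j :=
        mul_le_mul_of_nonneg_right (h0.le.trans (pow_le_pow_left₀ zero_le_two hK _)) (by positivity)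
    _ = K ^ (c0 + j) := (pow_add _ _ _).symm
    _ ≤ K ^ c := pow_le_pow_right₀ (by linarith) hc

theorem SumD.mono_l2 {n : ℕ} {τ : Type} {δ N K K' : ℝ} {T : Finset τ} {φ : τ → Fin n → ℝ}
    (h : SumD δ N K T φ) (hN : 0 < N) (hK : 0 < K) (hK' : K ≤ K') : SumD δ N K' T φ := by
  obtain ⟨Z0, X, G, Sx, h0, h1, h2, h3, h4, h5⟩ := h
  refine ⟨Z0, X, G, Sx, h0, le_trans (by gcongr) h1, fun x hx => (h2 x hx).trans hK',
    fun x hx x' hx' e => le_trans (by gcongr) (h3 x hx x' hx' e),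
    fun x0 r hr => (h4 x0 r hr).trans ?_, fun x hx => ?_⟩
  · have : 0 < r := lt_of_lt_of_le (by positivity) hr
    gcongr
  · obtain ⟨a1, a2, a3, a4⟩ := h5 x hx
    refine ⟨a1.trans (by gcongr), a2, le_trans (by gcongr) a3, fun p hp => ?_⟩
    obtain ⟨s, hs, hs'⟩ := a4 p hp
    exact ⟨s, hs, hs'.trans hK'⟩

theorem card_Y (k : ℕ) : ∃ C : ℝ, ∀ {σ w K : ℝ} {d : Dat (k + 1)} {i0 : Fin (k + 1)},
    Hy σ d w K i0 → ∀ {n F ω0}, Fd d w⁻¹ n F ω0 →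
    ((F.image fun p => cell w⁻¹ (d.c.pos p.1)).card : ℝ) ≤ C * w ^ k := by
  obtain ⟨C, -, hC⟩ := ryA (k + 1)
  refine ⟨C * 2 ^ (2 * (k + 1)), fun {σ w K d i0} h n F ω0 hF => ?_⟩
  have b := hC h.reg 2 ω0.2 1 w⁻¹ (d.u ω0) 0 one_le_two h.e0 h.e1
  rw [one_div, inv_inv, Nat.add_sub_cancel] at b
  refine le_trans (Nat.cast_le.2 (card_le_card fun y hy => ?_)) b
  obtain ⟨p, hp, rfl⟩ := mem_image.1 hy
  have a := (mem_TT.1 (hF.sub hp)).1.1
  refine mem_image_of_mem _ (mem_filter.2 ⟨a, (hF.key p hp).1, ?_, ?_⟩)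
  · linarith [h.u0_close hF hp, h.e0]
  · simpa using h.reg.good.toPre.norm_pos a

theorem card_I (k : ℕ) : ∃ C ≥ (1 : ℝ), ∀ {σ w K : ℝ} {d : Dat (k + 1)} {i0 : Fin (k + 1)},
    Hy σ d w K i0 → ∀ {n F ω0}, Fd d w⁻¹ n F ω0 → ∀ C1 : ℝ, 0 < C1 →
    d.c.nL * w ^ σ / (C1 * K ^ 5) ≤ F.card → w ^ ((k : ℝ) + 2 - σ) / (C * C1 * K ^ 6) ≤
      ((F.image fun p => (p.2.2, cell w⁻¹ (d.c.pos p.1), alp d i0 w⁻¹ ω0 p.1)).card : ℝ) := by
  obtain ⟨C, hC1, hC⟩ := ruA (k + 1)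
  refine ⟨C, hC1, fun {σ w K d i0} h n F ω0 hF C1 hC1' hc => ?_⟩
  have hw := h.w0
  have hK := h.K0
  have hL := h.reg.good.nL_pos
  have a1 := fib_l2 F (fun p => (p.2.2, cell w⁻¹ (d.c.pos p.1), alp d i0 w⁻¹ ω0 p.1))
    (M := C * K * d.c.nL * (w⁻¹ ^ 2) ^ (((k + 1 : ℕ) : ℝ) - σ) * w ^ k) fun p hp => by
      have b := hC h.reg h.N1 1 ω0.2 w⁻¹ (w⁻¹ ^ 2) (d.u p.1) (d.c.pos p.1) le_rfl h.e2 h.e3 h.e1
      rw [h.e4, Nat.add_sub_cancel, one_pow, mul_one] at b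
      refine le_trans (Nat.cast_le.2 (card_le_card_of_injOn (fun p' => p'.1.1) (fun p' hp' => ?_)
        fun p1 hp1 p2 hp2 e => ?_)) b
      · obtain ⟨b1, b2⟩ := mem_filter.1 hp'
        simp only [Prod.mk.injEq] at b2
        have a := (mem_TT.1 (hF.sub b1)).1.1
        have e : (p'.1.1, ω0.2) = p'.1 := Prod.ext rfl (hF.key _ b1).1.symm
        refine mem_filter.2 ⟨h.memL a, ?_⟩
        rw [e, one_mul, one_mul]
        refine ⟨a, h.norm_u_sub _ _ (fun j hj => h.row hj _) ?_, cell_close h.e0 b2.2.1⟩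
        exact cz_close (pow_pos h.e0 2) (sub_left_injective b2.2.2)
      · obtain ⟨b1, b2⟩ := mem_filter.1 hp1
        obtain ⟨b3, b4⟩ := mem_filter.1 hp2
        simp only [Prod.mk.injEq] at b2 b4
        exact Prod.ext (Prod.ext e ((hF.key _ b1).1.trans (hF.key _ b3).1.symm))
          (Prod.ext ((mem_TT.1 (hF.sub b1)).2.1.symm.trans
            (Eq.trans e (mem_TT.1 (hF.sub b3)).2.1)) (b2.1.trans b4.1.symm))
  have e : d.c.nL * w ^ σ / (C1 * K ^ 5) = w ^ ((k : ℝ) + 2 - σ) / (C * C1 * K ^ 6) *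
      (C * K * d.c.nL * (w⁻¹ ^ 2) ^ (((k + 1 : ℕ) : ℝ) - σ) * w ^ k) := by
    have e1 : w ^ σ = w ^ ((k : ℝ) + 2 - σ) * (w⁻¹ ^ 2) ^ (((k + 1 : ℕ) : ℝ) - σ) * w ^ k := by
      rw [inv_pow, ← Real.rpow_two, ← Real.rpow_neg hw.le, ← Real.rpow_mul hw.le,
        ← Real.rpow_natCast w k, ← Real.rpow_add hw, ← Real.rpow_add hw]
      congr 1
      push_cast
      ring
    rw [e1]
    field_simp
  rw [e] at hc
  exact le_of_mul_le_mul_right (hc.trans a1) (by positivity)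

namespace Hy

variable {σ w K : ℝ} {d : Dat (k + 1)} {i0 : Fin (k + 1)} (h : Hy σ d w K i0)
  {n : ℤ} {F : Finset ((ℕ × ℝ) × (ℕ × ℝ))} {ω0 : ℕ × ℝ} (hF : Fd d w⁻¹ n F ω0)
include h

theorem norm_gv {ω ω' : ℕ × ℝ} (a : ω ∈ d.c.E) (a' : ω' ∈ d.c.E) :
    ‖gv i0 w⁻¹ (d.s ω' i0) (cell w⁻¹ (d.c.pos ω))‖ ≤ (k + 1) * 2 ^ (k + 1) + 3 := by
  refine (pi_norm_le_iff_of_nonneg (by positivity)).2 fun j => ?_
  refine Fin.cases ?_ (fun l => ?_) j
  · simp only [gv, Fin.cons_zero]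
    linarith [norm_le_pi_norm (d.s ω') i0, h.norm_s a']
  · simp only [gv, Fin.cons_succ, Real.norm_eq_abs]
    have b1 := h.corner (i := ω.1) (z0 := ω.2) (z1 := ω.2) a (by simpa using h.e0.le)
      (i0.succAbove l)
    have b2 : |d.c.pos ω (i0.succAbove l)| ≤ 2 :=
      (norm_le_pi_norm _ _).trans (h.reg.good.toPre.norm_pos a)
    have b3 : (2 : ℝ) ≤ (k + 1) * 2 ^ (k + 1) := by
      have : (2 : ℝ) ≤ 2 ^ (k + 1) := le_self_pow₀ one_le_two (by omega)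
      have : (0 : ℝ) ≤ k := Nat.cast_nonneg k
      nlinarith
    have := abs_sub_abs_le_abs_sub (w⁻¹ * (cell w⁻¹ (d.c.pos ω) (i0.succAbove l) : ℝ))
      (d.c.pos ω (i0.succAbove l))
    linarith [h.e1]

include hF

theorem card_Yb (s : (Fin (k + 1) → ℤ) → ℝ) (q : Fin (k + 1) → ℝ) :
    (((F.image fun p => cell w⁻¹ (d.c.pos p.1)).filter
      fun y => ‖gv i0 w⁻¹ (s y) y - q‖ ≤ 1 / w).card : ℝ) ≤
      (2 * (1 + (1 + (k + 1) * 2 ^ (k + 1)) * 6) + 2) ^ (k + 1) := by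
  have e0 := h.e0
  rw [filter_image]
  rcases (F.filter fun p => ‖gv i0 w⁻¹ (s (cell w⁻¹ (d.c.pos p.1))) (cell w⁻¹ (d.c.pos p.1)) - q‖ ≤
    1 / w).eq_empty_or_nonempty with e | ⟨p0, hp0⟩
  · rw [e, image_empty, card_empty, Nat.cast_zero]
    positivity
  have key : ∀ p ∈ F.filter fun p => ‖gv i0 w⁻¹ (s (cell w⁻¹ (d.c.pos p.1)))
      (cell w⁻¹ (d.c.pos p.1)) - q‖ ≤ 1 / w, ∀ l,
      |d.c.pos p.1 (i0.succAbove l) - q l.succ| ≤ 3 * w⁻¹ := fun p hp l => by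
    obtain ⟨b1, b2⟩ := mem_filter.1 hp
    have b3 := (norm_le_pi_norm _ l.succ).trans b2
    simp only [gv, Pi.sub_apply, Fin.cons_succ, Real.norm_eq_abs, one_div] at b3
    have b4 := h.corner (i := p.1.1) (z0 := p.1.2) (z1 := p.1.2) (mem_TT.1 (hF.sub b1)).1.1
      (by simpa using e0.le) (i0.succAbove l)
    rw [abs_le] at b3 b4 ⊢
    constructor <;> linarith [b3.1, b3.2, b4.1, b4.2]
  have c := cover _ (fun p : (ℕ × ℝ) × (ℕ × ℝ) => d.c.pos p.1) (d.c.pos p0.1) e0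
    (ρ := (1 + (1 + (k + 1) * 2 ^ (k + 1)) * 6) * w⁻¹) (by positivity) fun p hp => by
      have b1 := h.reg.gr.norm_le_of ω0.2 (d.c.pos p.1 - d.c.pos p0.1) (b := 6 * w⁻¹)
        (by positivity) fun j hj => by
          obtain ⟨l, rfl⟩ := Fin.exists_succAbove_eq (x := j) (y := i0) (by simpa [h.S] using hj)
          have c1 := abs_le.1 (key p hp l)
          have c2 := abs_le.1 (key p0 hp0 l)
          rw [Pi.sub_apply, abs_le]
          constructor <;> linarith [c1.1, c1.2, c2.1, c2.2]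
      have k1 := hF.key p (mem_filter.1 hp).1
      have k2 := hF.key p0 (mem_filter.1 hp0).1
      have b2 : mv (d.P ω0.2) (d.c.pos p.1 - d.c.pos p0.1) = d.u p.1 - d.u p0.1 := by
        rw [mv_sub, Dat.u, Dat.u, k1.1, k2.1]
      have b3 := cell_close e0 (k1.2.trans k2.2.symm)
      rw [b2] at b1
      push_cast at b1
      linarith
  rw [Fintype.card_fin, mul_div_assoc, mul_div_cancel_right₀ _ e0.ne'] at c
  convert c

end Hy

end Vale.Agent.P127
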