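import Vale.Agent.P127.Lin2.Base
import Vale.Agent.P127.Lin0

/-! # P127 Lin2/Data: the data fed into the Fourier lemma and their bounds. -/

namespace Vale.Agent.P127

open Finset
open scoped Classical

variable {k : ℕ}

/-- the coordinate `i0` of `u` in units of `η ^ 2`, relative to the base point -/
noncomputable def alp (d : Dat (k + 1)) (i0 : Fin (k + 1)) (η : ℝ) (ω0 ω : ℕ × ℝ) : ℤ :=
  cell (η ^ 2) (d.u ω) i0 - cell (η ^ 2) (d.u ω0) i0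

/-- the frequency vector of a cell -/
noncomputable def gv (i0 : Fin (k + 1)) (η s : ℝ) (y : Fin (k + 1) → ℤ) : Fin (k + 1) → ℝ :=
  Fin.cons s fun l => η * (y (i0.succAbove l) : ℝ)

/-- a family of pairs with one key -/
structure Fd (d : Dat (k + 1)) (η : ℝ) (n : ℤ) (F : Finset ((ℕ × ℝ) × (ℕ × ℝ))) (ω0 : ℕ × ℝ) :
    Prop where
  sub : F ⊆ TT d η n
  mem : ω0 ∈ d.c.E
  win : cz η ω0.2 = n
  key : ∀ p ∈ F, p.1.2 = ω0.2 ∧ cell η (d.u p.1) = cell η (d.u ω0)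

theorem entry_l2 {D : ℕ} (A B : Mt D) (i j : Fin D) : |A i j - B i j| ≤ ‖A - B‖ :=
  (norm_le_pi_norm ((A - B) i) j).trans (norm_le_pi_norm (A - B) i)

theorem floor_diff_l2 (x y : ℝ) : |((⌊x⌋ : ℝ) - ⌊y⌋) - (x - y)| ≤ 1 := by
  have := Int.floor_le x
  have := Int.lt_floor_add_one x
  have := Int.floor_le y
  have := Int.lt_floor_add_one y
  rw [abs_le]
  constructor <;> linarith

theorem alp_diff (d : Dat (k + 1)) (i0 : Fin (k + 1)) (η : ℝ) (ω0 ω ω' : ℕ × ℝ) :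
    |((alp d i0 η ω0 ω : ℝ) - alp d i0 η ω0 ω') - (d.u ω i0 - d.u ω' i0) / η ^ 2| ≤ 1 := by
  have := floor_diff_l2 (d.u ω i0 / η ^ 2) (d.u ω' i0 / η ^ 2)
  simp only [alp, cell]
  push_cast
  rw [sub_div]
  convert this using 2
  ring

theorem rel_alg_l2 {τ s s' η K a0 a1 U : ℝ} {Δ x y : Fin k → ℝ} (hη : 0 < η) (hK : 2 ≤ K)
    (hτ : |τ| ≤ η) (hs : |s' - s| ≤ 2 * K * η) (hΔ : ∀ l, |Δ l| ≤ 2 * K * η)
    (hx : ∀ l, |y l - x l| ≤ 2 * η) (hU : U = τ * s + ∑ l, Δ l * x l)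
    (ha : |a1 - a0 - U / η ^ 2| ≤ 1) :
    |a0 + (τ / η ^ 2 * s' + ∑ l, Δ l / η ^ 2 * y l) - a1| ≤ (4 * k + 3) * K := by
  have e2 := pow_pos hη 2
  have b1 : |τ * (s' - s)| ≤ η * (2 * K * η) := by
    rw [abs_mul]
    gcongr
  have b2 := (abs_sum_le_sum_abs _ _).trans (sum_le_card_nsmul univ
    (fun l : Fin k => |Δ l * (y l - x l)|) (2 * K * η * (2 * η)) fun l _ => by
      rw [abs_mul]
      exact mul_le_mul (hΔ _) (hx _) (abs_nonneg _) (by positivity))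
  rw [card_univ, Fintype.card_fin, nsmul_eq_mul] at b2
  have h5 : |τ * (s' - s) + ∑ l, Δ l * (y l - x l)| ≤ (4 * k + 2) * K * η ^ 2 := by
    refine (abs_add_le _ _).trans ?_
    linarith
  have h7 := div_le_div_of_nonneg_right h5 e2.le
  rw [mul_div_cancel_right₀ _ e2.ne', ← abs_of_pos e2, ← abs_div] at h7
  have h8 : τ / η ^ 2 * s' + ∑ l, Δ l / η ^ 2 * y l =
      U / η ^ 2 + (τ * (s' - s) + ∑ l, Δ l * (y l - x l)) / η ^ 2 := by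
    rw [hU]
    simp only [add_div, sum_div]
    rw [add_add_add_comm, ← sum_add_distrib]
    congr 1
    · ring
    · exact sum_congr rfl fun l _ => by ring
  rw [h8, abs_le]
  rw [abs_le] at ha h7
  constructor <;> linarith [ha.1, ha.2, h7.1, h7.2]

theorem card_alp (k : ℕ) : ∃ C ≥ (1 : ℝ), ∀ {σ w K : ℝ} {d : Dat (k + 1)} {i0 : Fin (k + 1)},
    Hy σ d w K i0 → ∀ (A z β : ℝ) (q : V (k + 1)) (ω0 : ℕ × ℝ) (X : Finset ℤ), 1 ≤ A →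
    w⁻¹ ^ 2 ≤ β → β ≤ 1 →
    (∀ α ∈ X, ∃ ω ∈ d.c.E, ω.2 = z ∧ ‖d.u ω - q‖ ≤ A * β ∧ alp d i0 w⁻¹ ω0 ω = α) →
    (X.card : ℝ) ≤ C * A ^ (k + 1) * K * (β / w⁻¹ ^ 2) ^ (1 - σ) := by
  obtain ⟨C, hC, h3⟩ := r3A (k + 1)
  refine ⟨C, hC, fun {σ w K d i0} h A z β q ω0 X hA h1 h2 hX => ?_⟩
  have b := h3 h.reg h.N1 A z β _ q hA h.e2 h1 h2
  rw [Nat.cast_one] at b
  refine le_trans (Nat.cast_le.2 (le_trans (card_le_card fun α hα => ?_)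
    (card_image_le (f := fun y : Fin (k + 1) → ℤ => y i0 - cell (w⁻¹ ^ 2) (d.u ω0) i0)))) b
  obtain ⟨ω, a1, a2, a3, rfl⟩ := hX α hα
  exact mem_image_of_mem _ (mem_image_of_mem _ (mem_filter.2 ⟨a1, a2, a3⟩))

namespace Hy

variable {σ w K : ℝ} {d : Dat (k + 1)} {i0 : Fin (k + 1)} (h : Hy σ d w K i0)
include h

theorem abs_alp {ω0 ω : ℕ × ℝ} {A : ℝ} (hA : ‖d.u ω - d.u ω0‖ ≤ A * w⁻¹) :
    |(alp d i0 w⁻¹ ω0 ω : ℝ)| ≤ (A + 1) * w := by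
  have h1 := alp_diff d i0 w⁻¹ ω0 ω ω0
  have h2 : (alp d i0 w⁻¹ ω0 ω0 : ℝ) = 0 := by simp [alp]
  have h3 : |(d.u ω i0 - d.u ω0 i0) / w⁻¹ ^ 2| ≤ A * w := by
    rw [abs_div, abs_of_pos (pow_pos h.e0 2)]
    refine (div_le_div_of_nonneg_right ((norm_le_pi_norm (d.u ω - d.u ω0) i0).trans hA)
      (pow_pos h.e0 2).le).trans (le_of_eq ?_)
    rw [mul_div_assoc, h.e4]
  rw [h2, sub_zero] at h1
  have := abs_sub_abs_le_abs_sub (alp d i0 w⁻¹ ω0 ω : ℝ) ((d.u ω i0 - d.u ω0 i0) / w⁻¹ ^ 2)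
  linarith [h.w1]

theorem norm_gph {ω0 ω : ℕ × ℝ} (h0 : ω0 ∈ d.c.E) (hω : ω ∈ d.c.E)
    (e : cz w⁻¹ ω.2 = cz w⁻¹ ω0.2) (em : Fin k → Fin (k + 1) × Fin (k + 1)) :
    ‖gph d w⁻¹ ω0.2 em ω.2‖ ≤ 2 * K * w := by
  have hw := h.w0
  have hK := h.K2
  have e2 := pow_pos h.e0 2
  refine (pi_norm_le_iff_of_nonneg (by positivity)).2 fun j => ?_
  refine Fin.cases ?_ (fun l => ?_) j
  · simp only [gph, Fin.cons_zero, Real.norm_eq_abs, abs_div, abs_of_pos e2]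
    refine (div_le_div_of_nonneg_right (cz_close h.e0 e) e2.le).trans ?_
    rw [h.e4]
    nlinarith
  · simp only [gph, Fin.cons_succ, Real.norm_eq_abs, abs_div, abs_of_pos e2]
    have h1 : |d.P ω.2 (em l).1 (em l).2 - d.P ω0.2 (em l).1 (em l).2| ≤ 2 * K * w⁻¹ :=
      (entry_l2 _ _ _ _).trans (h.dP hω h0 e)
    refine (div_le_div_of_nonneg_right h1 e2.le).trans (le_of_eq ?_)
    rw [mul_div_assoc, h.e4]

variable {n : ℤ} {F : Finset ((ℕ × ℝ) × (ℕ × ℝ))} {ω0 : ℕ × ℝ} (hF : Fd d w⁻¹ n F ω0)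
include hF

theorem u0_close {p : (ℕ × ℝ) × (ℕ × ℝ)} (hp : p ∈ F) : ‖d.u p.1 - d.u ω0‖ ≤ w⁻¹ :=
  cell_close h.e0 (hF.key p hp).2

theorem u1_close {p : (ℕ × ℝ) × (ℕ × ℝ)} (hp : p ∈ F) :
    ‖d.u p.2 - d.u ω0‖ ≤ ((k + 1) * 2 ^ (k + 1) + 4 * (k + 1) + 1) * K * w⁻¹ := by
  obtain ⟨⟨i, z0⟩, ⟨i', z1⟩⟩ := p
  obtain ⟨⟨a, b⟩, c, c1, c2⟩ := mem_TT.1 (hF.sub hp)
  obtain rfl : i = i' := c
  have e0 := h.e0
  have hK := h.K2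
  have h1 : ‖(z1 - z0) • d.s (i, z0)‖ ≤ w⁻¹ * ((k + 1) * 2 ^ (k + 1)) := by
    rw [norm_smul]
    exact mul_le_mul (cz_close e0 (c2.trans c1.symm)) (h.norm_s a) (norm_nonneg _) e0.le
  have h2 : ‖mv (d.P z1 - d.P z0) (d.c.pos (i, z1))‖ ≤ (k + 1) * (2 * K * w⁻¹) * 2 := by
    refine (norm_mv _ _).trans ?_
    have := h.dP b a (c2.trans c1.symm)
    have := h.reg.good.toPre.norm_pos b
    push_cast
    gcongr
  have h3 := norm_add_le ((z1 - z0) • d.s (i, z0)) (mv (d.P z1 - d.P z0) (d.c.pos (i, z1)))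
  rw [← u_shift_l2] at h3
  have h4 := h.u0_close hF hp
  have h5 := norm_sub_le_norm_sub_add_norm_sub (d.u (i, z1)) (d.u (i, z0)) (d.u ω0)
  have h6 : w⁻¹ * ((k + 1) * 2 ^ (k + 1) + 1) * 1 ≤ w⁻¹ * ((k + 1) * 2 ^ (k + 1) + 1) * K := by
    gcongr
    linarith
  linarith

omit hF in
theorem s_close {ω ω' : ℕ × ℝ} (a : ω ∈ d.c.E) (a' : ω' ∈ d.c.E) (ez : ω'.2 = ω.2)
    (e : cell w⁻¹ (d.c.pos ω') = cell w⁻¹ (d.c.pos ω)) : |d.s ω' i0 - d.s ω i0| ≤ 2 * K * w⁻¹ := by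
  have b1 := h.lip1 _ a' _ a ez
  have b2 := mul_le_mul_of_nonneg_left (cell_close h.e0 e) h.K0.le
  have b3 : |d.s ω' i0 - d.s ω i0| ≤ ‖d.s ω' - d.s ω‖ := norm_le_pi_norm (d.s ω' - d.s ω) i0
  linarith

omit hF in
theorem corner {i : ℕ} {z0 z1 : ℝ} (a : (i, z0) ∈ d.c.E) (hτ : |z1 - z0| ≤ w⁻¹) (j : Fin (k + 1)) :
    |w⁻¹ * (cell w⁻¹ (d.c.pos (i, z0)) j : ℝ) - d.c.pos (i, z1) j| ≤ 2 * w⁻¹ := by
  have b1 : |d.c.pos (i, z0) j - w⁻¹ * (cell w⁻¹ (d.c.pos (i, z0)) j : ℝ)| ≤ w⁻¹ :=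
    (norm_le_pi_norm (d.c.pos (i, z0) - fun j => w⁻¹ * (cell w⁻¹ (d.c.pos (i, z0)) j : ℝ)) j).trans
      (cell_corner h.e0 (d.c.pos (i, z0)))
  have b2 : |(z1 - z0) * d.c.e i j| ≤ w⁻¹ * 1 := by
    rw [abs_mul]
    exact mul_le_mul hτ ((norm_le_pi_norm _ j).trans (h.reg.good.be _ (h.memL a)))
      (abs_nonneg _) h.e0.le
  have b3 : d.c.pos (i, z1) j = d.c.pos (i, z0) j + (z1 - z0) * d.c.e i j :=
    congrFun (pos_shift d.c i z0 z1) j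
  rw [abs_le] at b1 b2 ⊢
  constructor <;> linarith [b1.1, b1.2, b2.1, b2.2]

omit hF in
theorem u_row (i : ℕ) (z0 z1 : ℝ) : d.u (i, z1) i0 - d.u (i, z0) i0 =
    (z1 - z0) * d.s (i, z0) i0 + ∑ l : Fin k,
      (d.P z1 i0 (i0.succAbove l) - d.P z0 i0 (i0.succAbove l)) *
        d.c.pos (i, z1) (i0.succAbove l) := by
  have hS : i0 ∈ d.S := by simp [h.S]
  have := congrFun (u_shift_l2 d i z0 z1) i0
  simp only [Pi.sub_apply, Pi.add_apply, Pi.smul_apply, smul_eq_mul, mv] at this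
  rw [this, Fin.sum_univ_succAbove _ i0, (h.reg.gr z1).2.1 i0 hS i0 hS,
    (h.reg.gr z0).2.1 i0 hS i0 hS]
  ring

theorem rel {p p' : (ℕ × ℝ) × (ℕ × ℝ)} (hp : p ∈ F) (hp' : p' ∈ F)
    (e : cell w⁻¹ (d.c.pos p'.1) = cell w⁻¹ (d.c.pos p.1)) :
    |(alp d i0 w⁻¹ ω0 p.1 : ℝ) + ∑ j, gph d w⁻¹ ω0.2 (fun l => (i0, i0.succAbove l)) p.2.2 j *
      gv i0 w⁻¹ (d.s p'.1 i0) (cell w⁻¹ (d.c.pos p.1)) j - alp d i0 w⁻¹ ω0 p.2| ≤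
      (4 * k + 3) * K := by
  obtain ⟨⟨i, z0⟩, ⟨i', z1⟩⟩ := p
  obtain ⟨⟨a, b⟩, c, c1, c2⟩ := mem_TT.1 (hF.sub hp)
  obtain rfl : i = i' := c
  have a' := (mem_TT.1 (hF.sub hp')).1.1
  have ez : ω0.2 = z0 := (hF.key _ hp).1.symm
  have hτ : |z1 - z0| ≤ w⁻¹ := cz_close h.e0 (c2.trans c1.symm)
  have h1 := h.dP b a (c2.trans c1.symm)
  dsimp only at h1 a b
  have h2 : ∀ j, |d.P z1 i0 j - d.P z0 i0 j| ≤ 2 * K * w⁻¹ := fun j =>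
    (entry_l2 (d.P z1) (d.P z0) i0 j).trans h1
  have h5 := rel_alg_l2 (Δ := fun l => d.P z1 i0 (i0.succAbove l) - d.P z0 i0 (i0.succAbove l))
    (x := fun l => d.c.pos (i, z1) (i0.succAbove l))
    (y := fun l => w⁻¹ * (cell w⁻¹ (d.c.pos (i, z0)) (i0.succAbove l) : ℝ))
    h.e0 h.K2 hτ (h.s_close a a' ((hF.key _ hp').1.trans ez) e)
    (fun l => h2 (i0.succAbove l)) (fun l => h.corner a hτ (i0.succAbove l))
    (h.u_row i z0 z1) (alp_diff d i0 w⁻¹ ω0 (i, z1) (i, z0))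
  rw [Fin.sum_univ_succ, ez]
  simp only [gph, gv, Fin.cons_zero, Fin.cons_succ]
  exact h5

end Hy

end Vale.Agent.P127
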